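import Vale.Agent.P062.Snaky.Cert
import Vale.Agent.P062.Snaky.Data.All

/-!
Maker wins the Snaky achievement game on the empty square grid, with no handicap.
-/

namespace Vale.Agent.Results.P062.SnakyIsWinner

open Vale.Agent.P062.Snaky in
theorem result : MakerHasWinningStrategy :=
  Cert.winning Data.copies_ok Data.below37
    (o := Data.opening) (os := Data.openings) (by decide +kernel)

end Vale.Agent.Results.P062.SnakyIsWinner
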